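import Vale.Agent.P167.N.Kit
import Vale.Agent.P167.H592.QK1
import Vale.Agent.P167.QX.Loops

/-!
# P167, `0 < q < 1`, block K1: the system of local insertions

`abs_XcQ_zero`, `OmQ.norm_one`, `OmQ.ok` of `H592/QK1.lean` for `Kit (2 cos θ)`: the number of the
loops which meet `S` is at most `#S`, so the bounds have a constant `K ^ #S` with
`K = 4 / (2 cos θ)`.
-/

set_option autoImplicit false

namespace Vale.Agent.P167.N.H592

open Vale.Agent.P167.H592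

open Finset Filter Topology MeasureTheory

open Vale.Agent.P152 (Edge Ori vw wt unroll)

open Vale.Agent.P167.H825

open Vale.Agent.P167.H199 (phF Xc isOm_phF exists_isOm abs_Xc_le cang strand)

open Vale.Agent.P167.A (plane)

open Vale.Agent.P167.QX (XcQ nS nS_eq)

open Vale.Agent.P167.H685 (LE mem_LE)

variable {θ c : ℝ} {P : Measure Cfg} {om : Ins → ℂ}

/-- The number of the loops which meet `S`. -/
theorem nS_le (S : Finset Ed) (ω : Cfg) : nS S ω ≤ S.card := by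
  classical
  rw [nS_eq]
  have h : ∀ ℓ ∈ LE ω S, ∃ e ∈ S, e ∈ ℓ := by
    intro ℓ hℓ
    rw [mem_LE] at hℓ
    obtain ⟨-, y, h1, h2⟩ := hℓ
    exact ⟨y, h1, h2⟩
  choose! f h1 h2 using h
  refine Finset.card_le_card_of_injOn f h1 ?_
  intro ℓ hℓ ℓ' hℓ' he
  refine IsLoop.eq_of_mem (mem_LE.1 hℓ).1 (mem_LE.1 hℓ').1 (h2 ℓ hℓ) ?_
  rw [he]
  exact h2 ℓ' hℓ'

/-- A product over loops which are all `1`. -/
theorem abs_XcQ_zero (hθ : Kit (2 * Real.cos θ)) (S : Finset Ed) (ω : Cfg) :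
    |XcQ θ S (fun _ _ => 0) ω| ≤ (2 * (2 * Real.cos θ)⁻¹) ^ S.card := by
  have hθ_pos := hθ.pos
  have hθ_le := hθ.le
  have h1 : ∏ᶠ ℓ ∈ {ℓ : Finset Ed | IsLoop ω ℓ ∧ Disjoint ℓ S},
      (2 * Real.cos (cang plane θ (fun _ _ => 0) ω ℓ)) / (2 * Real.cos θ) = 1 := by
    refine finprod_mem_of_eqOn_one fun ℓ hℓ => ?_
    have h2 := QX.cos_loop_zero (θ := θ) hℓ.1 (a := fun _ _ => 0) fun _ _ => add_zero 0
    show (2 * Real.cos (cang plane θ (fun _ _ => 0) ω ℓ)) / (2 * Real.cos θ) = 1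
    rw [h2]
    exact div_self (by linarith)
  unfold XcQ
  rw [h1, one_mul, abs_mul]
  have h3 : |((2 * Real.cos θ) ^ nS S ω)⁻¹| ≤ (2 * Real.cos θ)⁻¹ ^ S.card := by
    rw [abs_inv, abs_of_nonneg (pow_nonneg (by linarith) _), ← inv_pow]
    exact pow_le_pow_right₀ ((one_le_inv₀ hθ_pos).2 hθ_le) (nS_le S ω)
  have h4 : |∏ e ∈ S, 2 * Real.cos (cang plane θ (fun _ _ => 0) ω (strand (nx ω) S e))| ≤
      2 ^ S.card := by
    rw [Finset.abs_prod]
    calc _ ≤ ∏ _e ∈ S, (2 : ℝ) := by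
          refine Finset.prod_le_prod (fun _ _ => abs_nonneg _) fun e _ => ?_
          rw [abs_mul, abs_two]
          have := Real.abs_cos_le_one (cang plane θ (fun _ _ => 0) ω (strand (nx ω) S e))
          linarith
      _ = 2 ^ S.card := by rw [prod_const]
  have h6 : (2 * (2 * Real.cos θ)⁻¹) ^ S.card = (2 * Real.cos θ)⁻¹ ^ S.card * 2 ^ S.card := by
    rw [mul_pow, mul_comm]
  rw [h6]
  exact mul_le_mul h3 h4 (abs_nonneg _) (pow_nonneg (inv_nonneg.2 hθ_pos.le) _)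

theorem OmQ.norm_one (h : OmQ θ P om) [IsProbabilityMeasure P] (hθ : Kit (2 * Real.cos θ))
    (S : Finset Ed) : ‖om ⟨S, fun _ => 1⟩‖ ≤ (4 * (2 * Real.cos θ)⁻¹) ^ S.card := by
  have hθ_pos := hθ.pos
  have h1 : phF S (fun _ _ => 0) = fun _ => 1 := by
    funext ω
    simp [phF]
  have h2 := h.ph S S (fun _ _ => 0) (le_refl S) (fun _ _ _ => rfl)
  rw [h1] at h2
  rw [h2, Complex.norm_real]
  have h3 := MeasureTheory.norm_integral_le_of_norm_le_const (μ := P)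
    (f := fun ω => XcQ θ S (fun _ _ => 0) ω) (C := (2 * (2 * Real.cos θ)⁻¹) ^ S.card)
    (Filter.Eventually.of_forall fun ω => by
      rw [Real.norm_eq_abs]
      exact abs_XcQ_zero hθ S ω)
  refine h3.trans ?_
  rw [probReal_univ, mul_one]
  have h5 : (0 : ℝ) < (2 * Real.cos θ)⁻¹ := inv_pos.2 hθ_pos
  exact pow_le_pow_left₀ (by positivity) (by linarith) _

/-- `IsOm.sysOk` with an arbitrary constant. -/
theorem IsOm.sysOk' (h : IsOm c om) (hc : 0 ≤ c) {K : ℝ} (hK : 1 ≤ K)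
    (hb : ∀ S : Finset (Edge (ℤ × ℤ)), ‖om ⟨S, fun _ => 1⟩‖ ≤ K ^ S.card) :
    (sysOm om).Ok where
  mono hA hK := LI.mono hA hK
  one K := LI.one K
  mul hA hB := LI.mul hA hB
  shift a hA := LI.shift a hA
  sh_mul := LIns.sh_mul
  sh_one := LIns.sh_one
  sh_zero := LIns.sh_zero
  sh_sh := LIns.sh_sh
  w_sh a A := h.shift A.2 a
  bdd A B := by
    classical
    obtain ⟨b1, hb1⟩ := A.2.bound
    obtain ⟨b2, hb2⟩ := B.2.bound
    have hb10 : 0 ≤ b1 := (norm_nonneg _).trans (hb1 fun _ _ => false)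
    refine ⟨b1 * b2 * K ^ (A.1.S.card + B.1.S.card), fun v => ?_⟩
    have h1 : ∀ ω, ‖(A * LIns.sh v B).1.F ω‖ ≤ b1 * b2 := by
      intro ω
      show ‖A.1.F ω * B.1.F (shH v ω)‖ ≤ b1 * b2
      rw [norm_mul]
      exact mul_le_mul (hb1 _) (hb2 _) (norm_nonneg _) hb10
    have hb120 : 0 ≤ b1 * b2 := (norm_nonneg _).trans (h1 fun _ _ => false)
    refine (h.bound hc (A * LIns.sh v B).2 h1).trans
      (mul_le_mul_of_nonneg_left ((hb _).trans ?_) hb120)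
    refine pow_le_pow_right₀ hK ?_
    show (A.1.S ∪ B.1.S.image (shE v)).card ≤ _
    exact (Finset.card_union_le _ _).trans (Nat.add_le_add_left Finset.card_image_le _)

/-- **`Sys.Ok` for all `0 < q < 1`.** -/
theorem OmQ.ok (h : OmQ θ P om) [IsProbabilityMeasure P] (hθ : Kit (2 * Real.cos θ))
    (hθ0 : 0 ≤ θ) (hθ1 : θ ≤ Real.pi) : (sysOm om).Ok :=
  IsOm.sysOk' h.isOm (cos_half_nonneg hθ0 hθ1)
    (by
      have h5 : 1 ≤ (2 * Real.cos θ)⁻¹ := (one_le_inv₀ hθ.pos).2 hθ.le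
      linarith)
    (Vale.Agent.P167.N.H592.OmQ.norm_one h hθ)

end Vale.Agent.P167.N.H592
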